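import Vale.Agent.P231.Fm.Dif2

/-!
# P231, stage 1: basic forms of flows and integration over the orbits (abstract part)
-/

set_option linter.unusedSectionVars false
set_option linter.unusedVariables false

open MeasureTheory Set Module Filter Topology
open scoped ContDiff Manifold

namespace Vale.Agent.P231.W

open Vale.Agent.P231.Fm

variable {X Y Z : Type*} {D : Dif X} {D' : Dif Y} {D'' : Dif Z}

/-- the form on `X × ℝ` pulled back from `X` -/
noncomputable def pr (w : Form D) : Form (D.prod (Dif.lin ℝ)) :=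
  Form.pull (Prod.fst : X × ℝ → X) (Dif.map_fst (D := D) (D' := Dif.lin ℝ)) w

/-- restriction of a form on `X × ℝ` to time `t` -/
noncomputable def at_ (t : ℝ) (w : Form (D.prod (Dif.lin ℝ))) : Form D :=
  Form.pull (fun x => (x, t)) (Form.map_slice t) w

/-- rescaling of time -/
theorem map_scale (c : ℝ) : (D.prod (Dif.lin ℝ)).Map (D.prod (Dif.lin ℝ))
    (fun p : X × ℝ => (p.1, c * p.2)) := fun {E} _ _ _ {u x} h =>
  ⟨h.1, Sm.comp (f := fun t : ℝ => c * t) (g := fun y => (u y).2)
    (Sm.of_contDiff (contDiff_const.mul contDiff_id) _) h.2⟩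

/-- integration over `[0, c]` of the contraction with `∂_t` -/
noncomputable def KT (c : ℝ) (w : Form (D.prod (Dif.lin ℝ))) : Form D :=
  Form.K (Form.pull (fun p : X × ℝ => (p.1, c * p.2)) (map_scale c) w)

/-- `w` is basic for the flow `Φ`: invariant and annihilated by the generator -/
def Basic (Φ : X × ℝ → X) (hΦ : (D.prod (Dif.lin ℝ)).Map D Φ) (w : Form D) : Prop :=
  Form.pull Φ hΦ w = pr w

/-- integration over the orbits of the flow `Φ` up to time `c` -/
noncomputable def J (Φ : X × ℝ → X) (hΦ : (D.prod (Dif.lin ℝ)).Map D Φ) (c : ℝ) (w : Form D) :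
    Form D := KT c (Form.pull Φ hΦ w)

/-- the coordinate form `dt` on `X × ℝ` -/
noncomputable def dt : Form (D.prod (Dif.lin ℝ)) :=
  (Form.fn (Prod.snd : X × ℝ → ℝ) (Dif.map_snd (D := D) (D' := Dif.lin ℝ))).d

/-- `h_n(a, b) = ∑_{i ≤ n} a^i b^(n-i)` -/
def hh {R : Type*} [Semiring R] (n : ℕ) (a b : R) : R :=
  ∑ i ∈ Finset.range (n + 1), a ^ i * b ^ (n - i)

/-- `Φ` is a flow of period `c` -/
structure IsFlow (D : Dif X) (c : ℝ) (Φ : X × ℝ → X) : Prop where
  map : (D.prod (Dif.lin ℝ)).Map D Φ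
  zero : ∀ x, Φ (x, 0) = x
  add : ∀ x s t, Φ (Φ (x, s), t) = Φ (x, s + t)
  per : ∀ x, Φ (x, c) = x

end Vale.Agent.P231.W
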