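import Vale.Agent.P231.H703.MultLE
import Vale.Agent.P231.W.Abs

/-!
# P231, stage 1: the unit tangent bundle as a diffeological space, the geodesic flow
-/

set_option maxSynthPendingDepth 3
set_option linter.unusedSectionVars false
set_option linter.unusedVariables false

open Bundle Manifold Set Filter Module
open scoped ContDiff Manifold Topology

namespace Vale.Agent.P231.W

noncomputable section

open Vale.Agent.P234 Vale.Agent.P231 Vale.Agent.P231.Fm

section Types

variable (E : Type*) [NormedAddCommGroup E] [NormedSpace ℝ E]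
  (M : Type*) [MetricSpace M] [ChartedSpace E M]
  [RiemannianBundle (fun x : M => TangentSpace 𝓘(ℝ, E) x)]

/-- the unit tangent bundle -/
def UT : Type _ := {p : TangentBundle 𝓘(ℝ, E) M // nm (E := E) p.proj p.snd = 1}

/-- the diffeology of `M` -/
def dM : Dif M := Dif.mfd 𝓘(ℝ, E) M

variable [IsManifold 𝓘(ℝ, E) ∞ M]

/-- the diffeology of `TM` -/
def dTM : Dif (TangentBundle 𝓘(ℝ, E) M) := Dif.mfd 𝓘(ℝ, E).tangent (TangentBundle 𝓘(ℝ, E) M)

/-- the diffeology of the unit tangent bundle -/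
def dUT : Dif (UT E M) := (dTM E M).ind Subtype.val

end Types

variable {E : Type*} [NormedAddCommGroup E] [NormedSpace ℝ E]
  {M : Type*} [MetricSpace M] [ChartedSpace E M]
  [RiemannianBundle (fun x : M => TangentSpace 𝓘(ℝ, E) x)]
  {e : ∀ x : M, TangentSpace 𝓘(ℝ, E) x → M}

/-- the footpoint -/
def foot (v : UT E M) : M := v.1.proj

/-- the vector (raw) -/
def vec' (v : UT E M) : E := v.1.snd

theorem nm_vec' (v : UT E M) : nm (foot v) (vec' v) = 1 := v.2

/-- a unit vector as an element of the unit tangent bundle -/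
def mk (x : M) (u : E) (h : nm x u = 1) : UT E M := ⟨tb x u, h⟩

@[simp] theorem foot_mk (x : M) (u : E) (h : nm x u = 1) : foot (mk x u h) = x := rfl

@[simp] theorem vec'_mk (x : M) (u : E) (h : nm x u = 1) : vec' (mk x u h) = u := rfl

theorem UT.ext' {v w : UT E M} (h : v.1 = w.1) : v = w := Subtype.ext h

theorem mk_eta (v : UT E M) : mk (foot v) (vec' v) v.2 = v := rfl

theorem mk_congr {x y : M} {u w : E} {hu : nm x u = 1} {hw : nm y w = 1} (h : x = y)
    (h' : u = w) : mk x u hu = mk y w hw := UT.ext' (tb_congr h h')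

variable [FiniteDimensional ℝ E] [IsManifold 𝓘(ℝ, E) ∞ M]
  [IsContMDiffRiemannianBundle 𝓘(ℝ, E) ∞ E (fun x : M => TangentSpace 𝓘(ℝ, E) x)]
  [CompactSpace M] [ConnectedSpace M] [IsRiemannianManifold 𝓘(ℝ, E) M]

/-- the geodesic flow on the unit tangent bundle -/
def phi (F : Facts e) (p : UT E M × ℝ) : UT E M :=
  mk (gam e (foot p.1) (vec' p.1) p.2) (vel e (foot p.1) (vec' p.1) p.2)
    ((nm_vel F _ _ _).trans p.1.2)

/-- the geodesic `(v, t) ↦ exp (t v)` -/
def gm (e : ∀ x : M, TangentSpace 𝓘(ℝ, E) x → M) (p : UT E M × ℝ) : M :=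
  gam e (foot p.1) (vec' p.1) p.2

@[simp] theorem foot_phi (F : Facts e) (p : UT E M × ℝ) : foot (phi F p) = gm e p := rfl

@[simp] theorem vec'_phi (F : Facts e) (p : UT E M × ℝ) :
    vec' (phi F p) = vel e (foot p.1) (vec' p.1) p.2 := rfl

theorem map_foot : (dUT E M).Map (dM E M) foot := fun {E'} _ _ _ {u x} h => by
  have h' : (dTM E M).At (Subtype.val ∘ u) x := h
  have h1 : (dM E M).At (TotalSpace.proj ∘ (Subtype.val ∘ u)) x :=
    Dif.map_mfd (I := 𝓘(ℝ, E).tangent) (I' := 𝓘(ℝ, E))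
      (contMDiff_proj (TangentSpace 𝓘(ℝ, E) : M → Type _)) h'
  exact h1

theorem map_phi (F : Facts e) : ((dUT E M).prod (Dif.lin ℝ)).Map (dUT E M) (phi F) :=
  fun {E'} _ _ _ {u x} h => by
    have h1 : (dTM E M).At (fun y => (u y).1.1) x := h.1
    have h2 : Sm (fun y => (u y).2) x := h.2
    have h4 : (dTM E M).At (fun y => tb (gam e (u y).1.1.proj ((u y).1.1.snd : E) (u y).2)
        (vel e (u y).1.1.proj ((u y).1.1.snd : E) (u y).2)) x := by
      filter_upwards [h1, h2] with y hy1 hy2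
      have h3 : ContMDiffAt 𝓘(ℝ, E') (𝓘(ℝ, ℝ).prod 𝓘(ℝ, E).tangent) ∞
          (fun y => ((u y).2, (u y).1.1)) y := hy2.contMDiffAt.prodMk hy1
      exact ContMDiffAt.comp y (contMDiff_flow F).contMDiffAt h3
    exact h4

theorem map_gm (F : Facts e) : ((dUT E M).prod (Dif.lin ℝ)).Map (dM E M) (gm e) := by
  intro E' _ _ _ u x h
  exact map_foot (map_phi F h)

theorem phi_zero (F : Facts e) (v : UT E M) : phi F (v, 0) = v := by
  rw [← mk_eta v]
  exact mk_congr (gam_zero F.isExp _ _) (vel_zero F.isExp _ _)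

theorem phi_add (F : Facts e) (v : UT E M) (s t : ℝ) :
    phi F (phi F (v, s), t) = phi F (v, s + t) :=
  mk_congr (gam_flow F _ _ s t) (vel_flow F _ _ s t)

theorem gm_phi (F : Facts e) (v : UT E M) (s t : ℝ) :
    gm e (phi F (v, s), t) = gm e (v, s + t) := gam_flow F _ _ s t

theorem gm_zero (F : Facts e) (v : UT E M) : gm e (v, 0) = foot v := gam_zero F.isExp _ _

/-- the geodesic flow has period `2 D` -/
theorem phi_per (F : Facts e) {D : ℝ} (hD : 0 < D) (hB : InjGE e D)
    (hdiam : ∀ p q : M, dist p q ≤ D) (v : UT E M) : phi F (v, 2 * D) = v := by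
  have hcl : ∀ (x : M) (v : E), nm x v = 2 * D → e x v = x :=
    fun x v hv => closed_of_inj_diam F hD hB hdiam x v hv
  have h1 := gam_per F hD.le hcl (foot v) (vec' v) v.2 0
  have h2 := vel_per F hD.le hcl (foot v) (vec' v) v.2 0
  rw [zero_add] at h1 h2
  refine Eq.trans ?_ (phi_zero F v)
  exact mk_congr h1 h2

theorem isFlow_phi (F : Facts e) {D : ℝ} (hD : 0 < D) (hB : InjGE e D)
    (hdiam : ∀ p q : M, dist p q ≤ D) : IsFlow (dUT E M) (2 * D) (phi F) where
  map := map_phi F
  zero := phi_zero F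
  add := phi_add F
  per := phi_per F hD hB hdiam

/-- the antipodal cut point `exp (D v)` -/
def bar (e : ∀ x : M, TangentSpace 𝓘(ℝ, E) x → M) (D : ℝ) (v : UT E M) : M := gm e (v, D)

theorem dist_bar (F : Facts e) {D : ℝ} (hD : 0 < D) (hB : InjGE e D) (v : UT E M) :
    dist (foot v) (bar e D v) = D := by
  have h2 := nm_smul (E := E) (foot v) (vec' v) D
  rw [nm_vec' v, mul_one, abs_of_pos hD] at h2
  have h1 := hB (foot v) (D • vec' v : E) h2.le
  exact h1.trans h2

end

end Vale.Agent.P231.W
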